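import Crest.Agent.X262.Bnd.Defs
import Crest.Agent.X262.Loc95.Slc

/-!
# Row 262, BND (helper95): the dictionary `Bnd.ctr`, `Bnd.cl`, `Bnd.fdg` versus `Loc.cen`, `Geo.dg`

* `ctr_le_cen`, `cl_eq_cen`, `dim_ctr`, `dim_cl`;
* `dg_eq_fdg` : `a · V · H ^ d = dlV H V * fdg V (cl H V) a`.
-/

set_option autoImplicit false
set_option linter.unusedSectionVars false
set_option linter.style.haveILetI false

noncomputable section

namespace Crest.Agent.X262.End95

open Crest.Agent.X277 Crest.Agent.X277.BD Crest.Agent.X277.Pst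
open Crest.Agent.X277.BD.Cyc (Rf plV)
open Crest.Agent.X262.Bnd Crest.Agent.X262.Loc Crest.Agent.X262.Geo
open List (replicate)

variable {K : Type} [Field K] [Algebra ℂ K] {H H' a : BD ℂ K} {V W : RZ ℂ K} {x : K} {d : ℕ}

theorem r_mem_rsd {S : Set K} (hx : x ∈ S) : (plV V).r x ∈ rsd S V :=
  IntermediateField.subset_adjoin _ _ ⟨x, hx, rfl⟩

theorem r_mem_ctr (hx : x ∈ loc H V) : (plV V).r x ∈ ctr H V := r_mem_rsd hx

theorem rsd_mono {S S' : Set K} (h : S ⊆ S') : rsd S V ≤ rsd S' V :=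
  IntermediateField.adjoin.mono _ _ _ (Set.image_mono h)

theorem ctr_mono (h : loc H V ≤ loc H' V) : ctr H V ≤ ctr H' V := rsd_mono h

theorem mem_cl {y : Rf V} : y ∈ cl H V ↔ IsAlgebraic (ctr H V) y := mem_algebraicClosure_iff

theorem ctr_le_cl (H : BD ℂ K) (V : RZ ℂ K) : ctr H V ≤ cl H V := fun y hy =>
  mem_cl.2 (isAlgebraic_algebraMap (⟨y, hy⟩ : ctr H V))

theorem cl_cl {y : Rf V} (h : IsAlgebraic (cl H V) y) : y ∈ cl H V := mem_cl.2 (alg_cl h)

theorem cl_mono (h : loc H V ≤ loc H' V) : cl H V ≤ cl H' V := fun _ hy =>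
  mem_cl.2 (isAlg_mono (ctr_mono h) (mem_cl.1 hy))

theorem r_div_mem_Sec {g s : K} (hg : V.v g = a.val V) (hs : s ∈ a.Sec) :
    (plV V).r (s / g) ∈ ((plV V).res (a - pr ℂ g)).Sec :=
  Pl.r_mem_Sec (Pl.val_sub_gen (p := plV V) hg) fun U => by
    rw [val_sub, val_pr (ne_of_val hg), map_div₀]
    exact div_le_div_of_nonneg_right (hs U) zero_le

theorem lin_rs_nsmul (V : RZ ℂ K) (m : ℕ) (a : BD ℂ K) :
    Lin ((plV V).rs (m • a)) (m • (plV V).rs a) := by
  induction m with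
  | zero => simpa using (plV V).lin_rs_res (a := 0) rfl
  | succ n ih => simpa only [succ_nsmul] using ((plV V).lin_rs_add _ _).trans (ih.add Lin.rfl)

theorem ctr_le_cen (hH : Free H) (V : RZ ℂ K) : ctr H V ≤ cen H V := by
  refine IntermediateField.adjoin_le_iff.2 ?_
  rintro _ ⟨x, ⟨m, g, h1, h2, h3⟩, rfl⟩
  have h4 := div_mem_cf (r_div_mem_Sec h2 h3) (r_div_mem_Sec h2 h1)
  rw [div_self (ne_of_val h2), Pl.r_one, div_one, mul_div_cancel_right₀ _ (ne_of_val h2),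
    ← Lin.cf_eq (Pl.lin_rs (p := plV V) h2), Lin.cf_eq (lin_rs_nsmul V m H)] at h4
  exact Gfm.cf_le_of_car ((plV V).free_rs hH) ((Mod.car_self ((plV V).free_rs hH)).nsmul m) h4

theorem cen_le_cl (hH : Free H) (V : RZ ℂ K) : cen H V ≤ cl H V := fun y hy => by
  obtain ⟨r, s, -, h1, h2⟩ := hH.exists_fam
  obtain ⟨i, hi⟩ := h2 V
  have h0 := ne_of_val hi
  have h3 : (plV V).res (H - pr ℂ (s i)) = mxf ℂ fun j => (plV V).r (s j / s i) := by
    refine eq_mxf (fun j => r_div_mem_Sec hi (h1 j)) fun U => ?_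
    obtain ⟨j, hj⟩ := h2 ((plV V).cm U)
    exact ⟨j, (Pl.val_res (Pl.val_sub_gen (p := plV V) hi)
      (by rw [val_sub, val_pr h0, map_div₀, hj])).symm⟩
  rw [cen, Lin.cf_eq (Pl.lin_rs (p := plV V) hi), h3,
    cf_mxf ⟨i, by rw [div_self h0, Pl.r_one]; exact one_ne_zero⟩] at hy
  refine mem_cl.2 (isAlg_mono (IntermediateField.adjoin_le_iff.2 ?_) hy)
  rintro _ ⟨j, l, rfl⟩
  have h4 : ∀ j, (plV V).r (s j / s i) ∈ ctr H V := fun j => r_mem_ctr
    (div_mem_loc (m := 1) (by simpa using h1 j) (by simpa using h1 i) (by simpa using hi))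
  exact div_mem (h4 l) (h4 j)

theorem cl_eq_cen (hH : Free H) (V : RZ ℂ K) : cl H V = cen H V :=
  le_antisymm (fun _ hy => cf_cl (isAlg_mono (ctr_le_cen hH V) (mem_cl.1 hy))) (cen_le_cl hH V)

theorem fdg_eq [Algebra.EssFiniteType ℂ (Rf V)] (L : IntermediateField ℂ (Rf V)) (a : BD ℂ K) :
    fdg V L a = bnum [up L ((plV V).rs a)] := dif_pos (eftTop L)

variable [Algebra.EssFiniteType ℂ K]

/-- algebraic extensions inside the residue field have the same dimension -/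
theorem dim_eq_of_alg (hV : Dvs V) {L L' : IntermediateField ℂ (Rf V)} (h : L ≤ L')
    (h' : ∀ y ∈ L', IsAlgebraic L y) : dim ℂ L' = dim ℂ L := by
  haveI := essFT_Rf hV
  letI := (IntermediateField.inclusion h).toRingHom.toAlgebra
  haveI : IsScalarTower L L' (Rf V) := .of_algebraMap_eq fun _ => rfl
  haveI : Algebra.IsAlgebraic L L' := ⟨fun y =>
    (isAlgebraic_algebraMap_iff (algebraMap L' (Rf V)).injective).1 (h' y y.2)⟩
  have h1 : dim L' (Rf V) = dim L (Rf V) := Slope.dm_eq_iff.2 inferInstance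
  have h2 := dim_tower ℂ L (Rf V)
  have h3 := dim_tower ℂ L' (Rf V)
  omega

theorem dim_cl (hV : Dvs V) (H : BD ℂ K) : dim ℂ (cl H V) = dim ℂ (ctr H V) :=
  dim_eq_of_alg hV (ctr_le_cl H V) fun _ => mem_cl.1

theorem dim_ctr (hH : Free H) (hV : Dvs V) : dim ℂ (ctr H V) = dim ℂ (cen H V) := by
  rw [← dim_cl hV, cl_eq_cen hH]

theorem dim_cl_one (hH : Free H) (hV : Dvs V) (hd : dim ℂ K = d + 2) (h : dim ℂ (ctr H V) = d) :
    dim (cl H V) (Rf V) = 1 := by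
  rw [cl_eq_cen hH]
  exact dim_cen_one hV hd (dim_ctr hH hV ▸ h)

theorem dg_eq_fdg (hH : Free H) (hV : Dvs V) (h : dim ℂ (ctr H V) = d) (a : BD ℂ K) :
    dg V (a :: replicate d H) = dlV H V * fdg V (cl H V) a := by
  haveI := essFT_Rf hV
  rw [dg_cen_one hH (dim_ctr hH hV ▸ h), fdg_eq, cl_eq_cen hH]

theorem prm_iff_dim_ctr (hH : Mod.IsMod H) (hV : Dvs V) :
    Prm H V ↔ dim ℂ (ctr H V) + 1 = dim ℂ K := by
  rw [dim_ctr hH.free hV, prm_iff_dim_cen hH hV]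

end Crest.Agent.X262.End95
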