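import Crest.Agent.X262.End95.Pg
import Crest.Agent.X262.R139.Main

/-!
# Row 262, BND (helper95): the exceptional divisors of K3 type over a smooth model are counted

* `tmP P b`    : a smooth model as a terminal model;
* `loc_eq`     : `SmZ P O`, `V` dominates `O` gives `loc (oP P) V = O`;
* `exists_wit` : a smooth witness; `endStmt_of`.
-/

set_option autoImplicit false
set_option linter.style.haveILetI false

open scoped KaehlerDifferential

noncomputable section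

namespace Crest.Agent.X262.End95

open Crest.Agent.X277 Crest.Agent.X277.BD Crest.Agent.X277.Lef Crest.Agent.X277.Pst
open Crest.Agent.X277.BD.Br (oP kP On)
open Crest.Agent.X277.BD.Cyc (Rf)
open Crest.Agent.X262.Bnd Crest.Agent.X262.Qt

variable {K : Type} [Field K] [Algebra ℂ K] {n c : ℕ} {P : PModel ℂ K} {O : Subalgebra ℂ K}
  {V : RZ ℂ K}

/-- a smooth model is a terminal model -/
def tmP (P : PModel ℂ K) (b : Bs n K) : Sark.TM b :=
  haveI := Geo.eft P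
  { H := oP P
    mod := Geo.isMod_oP P
    r := 1
    r_pos := one_pos
    κ := kP P b
    car := Geo.car_of_On (Br.kP_mem b)
    κ_eq := fun _ _ h1 h2 => by rw [one_nsmul, Sark27.kP_eq_val b h2 h1]
    κ_lt := fun _ _ h1 h2 => by
      rw [one_nsmul]
      exact Sark27.kP_lt_val b h1 h2
    qf := fun a => ⟨1, one_pos, _, Geo.car_of_On (Geo.tr_mem a),
      Geo.eqOn_iff.2 fun _ h => by rw [one_nsmul, Geo.od_tr h]⟩ }

theorem dom_loc (H : BD ℂ K) (V : RZ ℂ K) : Dom V.1 (loc H V) :=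
  ⟨fun _ => mem_of_loc, fun _ => Neg.inv_mem_loc⟩

theorem loc_eq (h : SmZ P O n c) (hd : Dom V.1 O) : loc (oP P) V = O := by
  obtain ⟨x, hx⟩ := h.ne
  have h1 : Cns.Ov x V.1 := fun f hf => hd.le f (hx hf)
  refine le_antisymm (fun f hf => ?_) fun f hf => ?_
  · obtain ⟨b, h2, h3, h4⟩ := Sark27.exists_den h1 hf
    have := hd.div_mem (hx h4) (hx h2) h3
    rwa [mul_div_cancel_left₀ _ (ne_of_val h3)] at this
  · obtain ⟨b, h2, h3, h4⟩ := h.loc x hx f hf
    have := (dom_loc _ V).div_mem (Geo.lp_le_loc h1 h4) (Geo.lp_le_loc h1 h2)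
      ((hd.un_iff h3.2.1).1 h3)
    rwa [mul_div_cancel_left₀ _ h3.1] at this

/-- a smooth witness -/
theorem exists_wit (hQ : QtStmt) (hR : RfStmt) (b : Bs n K) (P : PModel ℂ K) (hV : Dvs V)
    (hP : ¬ Prm (oP P) V) {F : Type} [Field F] [Algebra ℂ F] (hF : PG2 F)
    (e : Rf V ≃ₐ[ℂ] RatFunc F) : ∃ W : PModel ℂ K, oP P ∈ On W ∧ Wit (tmP W b) (oP P) V := by
  haveI := Geo.eft P
  haveI := Geo.essFT_Rf hV
  obtain ⟨a, ha⟩ := hQ K P
  obtain ⟨i, U, t, Pd, q⟩ := ha V hV hP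
  obtain ⟨W, h1, h2, -⟩ := R139.model2 K n b P V i U t ∅ q.chart q.mem q.ord.coords (by simp)
  have h3 := loc_eq h2 q.ord.dom
  obtain ⟨e', -⟩ := hR ℂ K _ t V q.ord
  obtain ⟨f, -⟩ := Rul.rul (PG2.pg hF) (e.symm.trans e')
  refine ⟨W, h1, ?_, fun V' _ h h4 => q.prm V' h4 ?_⟩
  · have h5 : ctr (oP W) V = kf (ring P i U V) V := by rw [ctr, h3]; rfl
    exact (h5 ▸ PG2.congr hF f : PG2 (ctr (oP W) V))
  · exact (Eq.trans h h3 : loc (oP W) V' = _) ▸ dom_loc _ V'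

theorem endStmt_of (hQ : QtStmt) (hR : RfStmt) : EndStmt := fun _ _ _ _ b P _ hV hP h => by
  obtain ⟨F, _, _, _, d, -, ⟨X⟩, ⟨e⟩⟩ := h
  obtain ⟨W, -, h⟩ := exists_wit hQ hR b P hV hP (pg2_k3 X) e
  exact ⟨hV, _, h⟩

end Crest.Agent.X262.End95
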