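import Crest.Agent.X262.Reg18.Defs
import Crest.Agent.X262.Geo.Adj

/-!
# Row 262, BND (helper95): adjunction on the generic fibre of a prime over its centre
-/

set_option autoImplicit false
set_option linter.style.haveILetI false

noncomputable section

namespace Crest.Agent.X262.End95

open Crest.Agent.X277 Crest.Agent.X277.Lef Crest.Agent.X277.BD Crest.Agent.X277.Pst
open Crest.Agent.X277.BD.Br (On oP kP)
open Crest.Agent.X277.BD.Cyc (Rf plV)
open Crest.Agent.X262.Bnd Crest.Agent.X262.Geo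

theorem adj_fdg {K : Type} [Field K] [Algebra ℂ K] [Algebra.EssFiniteType ℂ K] {n d : ℕ}
    (b : Bs n K) {P : PModel ℂ K} {H : BD ℂ K} {V : RZ ℂ K} (hH : H.Free) (hP : H ∈ On P)
    (hV : Prm (oP P) V) (hd : dim ℂ K = d + 2) (h : dim ℂ (ctr H V) = d) :
    2 * (Loc.gn (cl H V) (Rf V) : ℤ) - 2 ≤ fdg V (cl H V) (kP P b + dv P V) := by
  haveI := essFT_Rf hV.dvs
  have h1 := dim_cl_one hH hV.dvs hd h
  rw [fdg_eq]
  rw [cl_eq_cen hH] at h1 ⊢
  exact adj_up (q := plV V) (Cyc.lnr_plV V) (Cyc.surj_plV V) hV b (Pl.free_rs hH)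
    (car_rs Br.free_oP (car_of_On hP)) h1

theorem adjG : Reg.AdjGStmt := fun _ _ _ _ b _ _ _ hH hP hV h =>
  adj_fdg b hH hP hV (dim_basis b) h

end Crest.Agent.X262.End95
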